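import Vale.Agent.P223A.Defs
import Vale.Agent.P223F.Mt
import Vale.Agent.P210U.Loc

/-!
# P223A: basic facts on the vocabulary of the stages
-/

open MeasureTheory Set Filter Topology
open scoped ContDiff
open Vale.Agent.P366M Vale.Agent.P210G Vale.Agent.P223Y Vale.Agent.P223F
open Vale.Agent.P223U (Ph)

noncomputable section

namespace Vale.Agent.P223A

variable {n : ℕ} {X : Type} [Mf0 n X] {g₀ : Fld n X}

theorem sm_dr {g : Fld n X} (h₀ : Met g₀) (hg : Met g) : Smooth (dr g₀ g) :=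
  let _ : Mf n X := ⟨g₀, h₀⟩
  hg.sm_dens

theorem dr_pos {g : Fld n X} (h₀ : Met g₀) (hg : Met g) (x : X) : 0 < dr g₀ g x :=
  div_pos (Real.sqrt_pos.2 (hg.det_pos x)) (Real.sqrt_pos.2 (h₀.det_pos x))

omit [Mf0 n X] in
theorem dr_nonneg (g : Fld n X) (x : X) : 0 ≤ dr g₀ g x :=
  div_nonneg (Real.sqrt_nonneg _) (Real.sqrt_nonneg _)

theorem integral_dr {g : Fld n X} (h₀ : Met g₀) (hg : Met g) (f : X → ℝ) :
    ∫ x, f x ∂vol g = ∫ x, f x * dr g₀ g x ∂vol g₀ :=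
  let _ : Mf n X := ⟨g₀, h₀⟩
  hg.integral_vol f

theorem md_nonneg (s δ : ℝ) (g : Fld n X) (v : Fin n → X → ℝ) (Q : X → ℝ) (x : X) :
    0 ≤ md s δ g₀ g v Q x := mul_nonneg (Real.exp_pos _).le (dr_nonneg g x)

theorem cont_md {g : Fld n X} {v : Fin n → X → ℝ} {Q : X → ℝ} (s δ : ℝ) (h₀ : Met g₀) (hg : Met g)
    (hv : CC ∞ v) (hQ : Continuous Q) : Continuous (md s δ g₀ g v Q) :=
  (Real.continuous_exp.comp (continuous_const.mul ((sm_Rv hg hv).cont.sub
    (continuous_const.mul hQ)))).mul (sm_dr h₀ hg).cont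

theorem Ph_nonneg (s T y : ℝ) : 0 ≤ Ph s T y := le_max_right _ _

theorem Ph_anti {s y y' : ℝ} (hs : 0 ≤ s) (T : ℝ) (h : y ≤ y') : Ph s T y' ≤ Ph s T y :=
  max_le_max (sub_le_sub_right (Real.exp_le_exp.2 (by nlinarith)) _) le_rfl

theorem Ph_zero {s T y : ℝ} (hs : 0 ≤ s) (h : T ≤ y) : Ph s T y = 0 :=
  max_eq_right (sub_nonpos.2 (Real.exp_le_exp.2 (by nlinarith)))

theorem Ph_le (s T y : ℝ) : Ph s T y ≤ Real.exp (-s * y) :=
  max_le (sub_le_self _ (Real.exp_pos _).le) (Real.exp_pos _).le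

theorem ge_nonneg (k m : ℕ) : 0 ≤ ge k m := by unfold ge; split_ifs <;> norm_num

theorem ge_le (k m : ℕ) : ge k m ≤ 1 := by unfold ge; split_ifs <;> norm_num

theorem nt_mono {J : ℕ} {ρ ρ' : ℝ} (h : ρ ≤ ρ') (t : Fin J → ℝ) : nt ρ t ≤ nt ρ' t :=
  Finset.card_le_card (Finset.monotone_filter_right _ fun _ _ q => q.trans h)

theorem meas_nt {J : ℕ} (ρ : ℝ) : Measurable (nt (J := J) ρ) := by
  unfold nt
  simp only [Finset.card_filter]
  exact Finset.measurable_sum _ fun i _ => .ite (by measurability) measurable_const measurable_const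

theorem meas_kk {J : ℕ} (ρ : ℝ) : Measurable (kk (J := J) ρ) := by
  unfold kk
  simp only [Finset.card_filter]
  exact Finset.measurable_sum _ fun i _ => .ite (by measurability) measurable_const measurable_const

variable {Γ : Type} [Group Γ] [MulAction Γ X] {F : Fr Γ} {χ : X → ℝ} {g : F.Ω → Fld n X}
  {v : F.Ω → Fin n → X → ℝ} {Q G G' : F.Ω → X → ℝ}

theorem Rn.map {V W : Type} {σ : F.Ω → X → V} (h : Rn F σ) (φ : V → W) :
    Rn F fun o x => φ (σ o x) := ⟨h.tr.map fun _ => φ, fun γ o x => congrArg φ (h.inv γ o x)⟩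

theorem Rn.map₂ {U V W : Type} {σ : F.Ω → X → U} {τ : F.Ω → X → V} (h : Rn F σ) (h' : Rn F τ)
    (φ : U → V → W) : Rn F fun o x => φ (σ o x) (τ o x) :=
  ⟨h.tr.map₂ h'.tr fun _ => φ, fun γ o x => congrArg₂ φ (h.inv γ o x) (h'.inv γ o x)⟩

theorem rn_pi {J : ℕ} {T : Fin J → F.Ω → X → ℝ} (h : ∀ i, Rn F (T i)) :
    Rn F fun o x i => T i o x :=
  ⟨tr_pi fun i => (h i).tr, fun γ o x => funext fun i => (h i).inv γ o x⟩

theorem rn_const {V : Type} {σ : X → V} (h : ∀ (γ : Γ) x, σ (γ • x) = σ x) : Rn F fun _ => σ :=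
  ⟨tr_const σ, fun γ _ x => h γ x⟩

theorem Sta.rs_Rv (d : Deck X Γ) (h : Sta F g v) : Rs F fun o => Rv (g o) (v o) where
  tr := (h.rg.tr.prod h.rv.tr).of_germ fun _ _ _ q => P210U.Rv_of_ev
    (q.mono fun _ => congrArg Prod.fst) fun i => q.mono fun _ e => congrFun (congrArg Prod.snd e) i
  inv γ o x := by
    refine (congrFun ((d.cm γ).Rv (g (γ • o)) (v (γ • o))) x).symm.trans ?_
    simp only [h.rg.inv γ o, fun x i => congrFun (h.rv.inv γ o x) i]
  sm o := sm_Rv (h.met o) (h.cc o)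

theorem Geo.rn_dr (G : Geo Γ g₀ χ) (h : Rn F g) : Rn F fun o => dr g₀ (g o) :=
  (rn_const G.inv).map₂ h fun (a b : Matrix (Fin n) (Fin n) ℝ) => √b.det / √a.det

theorem Geo.rn_md (G : Geo Γ g₀ χ) (h : Sta F g v) (hQ : Rn F Q) (s δ : ℝ) :
    Rn F fun o => md s δ g₀ (g o) (v o) (Q o) :=
  ((h.rs_Rv G.deck).toRn.map₂ hQ fun a b => Real.exp (-s * (a - δ * b))).map₂ (G.rn_dr h.rg) (· * ·)

theorem Geo.rm (G : Geo Γ g₀ χ) : Rm F fun _ => vol g₀ :=
  rm_vol G.deck (rn_const G.inv).inv (tr_const _) fun _ => G.riem.met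

theorem li_cont (h₀ : Met g₀) (t : Tr G) (c : ∀ o, Continuous (G o)) : Li F (fun _ => vol g₀) G :=
  .of_cont t c fun _ => h₀.locFin

/-- counts of the scores are admissible weights -/
theorem li_ge {ν : F.Ω → Measure X} {J : ℕ} {T : Fin J → F.Ω → X → ℝ} (hT : ∀ i, Rs F (T i))
    {φ : (Fin J → ℝ) → ℕ} (hφ : Measurable φ) (k : ℕ) (h : Li F ν G) :
    Li F ν fun o x => ge k (φ fun i => T i o x) * G o x := by
  convert h.ind (S := fun o => {x | k ≤ φ fun i => T i o x})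
    ((tr_pi fun i => (hT i).tr).map fun _ t => k ≤ φ t) fun o => measurableSet_le measurable_const
      (hφ.comp (measurable_pi_lambda _ fun i => ((hT i).sm o).cont.measurable)) using 3 with o x
  simp only [ge, indicator, mem_ofPred_eq, ite_mul, one_mul, zero_mul]
  congr

theorem Ex_le {ν : F.Ω → Measure X} (hν : Rm F ν) (hχ : Wt Γ χ) (h' : Li F ν G')
    (nn : ∀ o x, 0 ≤ G o x) (le : ∀ o x, G o x ≤ G' o x) : Ex F χ ν G ≤ Ex F χ ν G' :=
  integral_mono_of_nonneg (.of_forall fun o => integral_nonneg fun x => mul_nonneg (hχ.nn x) (nn o x))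
    (lc_int (h'.ex_lc hν hχ)) (.of_forall fun o => integral_mono_of_nonneg
      (.of_forall fun x => mul_nonneg (hχ.nn x) (nn o x)) ((h'.wt hχ).int hχ.cs (cs_wt χ G') o)
      (.of_forall fun x => mul_le_mul_of_nonneg_left (le o x) (hχ.nn x)))

end Vale.Agent.P223A
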