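import Vale.Agent.P223F.Defs
import Vale.Agent.P223T.Defs
import Vale.Agent.P223U.Defs

/-!
# P223A: the stages of the proof of `GOAL`; definitions and statements (helper31)
-/

open MeasureTheory Set
open scoped ContDiff
open Vale.Agent.P366M Vale.Agent.P210G Vale.Agent.P223Y Vale.Agent.P223F
open Vale.Agent.P210B (Riem)
open Vale.Agent.P210U (Up)
open Vale.Agent.P210R (fi)
open Vale.Agent.P223T (GI)
open Vale.Agent.P223U (Ph)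

noncomputable section

namespace Vale.Agent.P223A

section

variable {n : ℕ} {X : Type} [Mf0 n X]

/-- the density of `vol g` with respect to `vol g₀` -/
def dr (g₀ g : Fld n X) (x : X) : ℝ := √(mat g x).det / √(mat g₀ x).det

/-- the density of the mass of a state with respect to `vol g₀` -/
def md (s δ : ℝ) (g₀ g : Fld n X) (v : Fin n → X → ℝ) (Q : X → ℝ) (x : X) : ℝ :=
  Real.exp (-s * (Rv g v x - δ * Q x)) * dr g₀ g x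

/-- the geometric data -/
structure Geo (Γ : Type) [Group Γ] [MulAction Γ X] (g₀ : Fld n X) (χ : X → ℝ) : Prop where
  deck : Deck X Γ
  riem : Riem g₀
  inv : ∀ (γ : Γ) x, g₀ (γ • x) = g₀ x
  wt : Wt Γ χ

variable {Γ : Type} [Group Γ] [MulAction Γ X] (F : Fr Γ)

/-- invariant fields of finite range -/
structure Rn {V : Type} (σ : F.Ω → X → V) : Prop where
  tr : Tr σ
  inv : Inv Γ σ

/-- smooth invariant functions of finite range -/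
structure Rs (u : F.Ω → X → ℝ) : Prop extends Rn F u where
  sm : ∀ o, Smooth (u o)

/-- random states -/
structure Sta (g : F.Ω → Fld n X) (v : F.Ω → Fin n → X → ℝ) : Prop where
  rg : Rn F g
  rv : Rn F fun o x i => v o i x
  met : ∀ o, Met (g o)
  cc : ∀ o, CC ∞ (v o)

/-- random states whose metrics are iterated graphs over `g₀` -/
structure Gs (g₀ : Fld n X) (g : F.Ω → Fld n X) (v : F.Ω → Fin n → X → ℝ) (Q : F.Ω → X → ℝ) :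
    Prop extends Sta F g v where
  rq : Rs F Q
  gi : ∀ o, GI g₀ (g o) (Q o)

/-- a random partition of unity with supports in the translates of `K` and Fisher information at
most `ε ^ 2` -/
structure Amp (K : Set X) (g : F.Ω → Fld n X) (a : F.Ω → X → ℝ) (ε : ℝ) : Prop where
  pu : Pu F a
  cs : Cs a K
  nn : ∀ o x, 0 ≤ a o x
  en : ∀ o x, ∑ᶠ γ : Γ, fi (g o) (lb γ a o) x ≤ ε ^ 2

/-- scores: the score `i` is above `-r` only on the translates of `K` of the colour class `A i`,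
and at every point some score is at least `r` -/
structure Scr (K D : Set X) {J : ℕ} (A : Fin J → Set F.Ω) (T : Fin J → F.Ω → X → ℝ) (r : ℝ) :
    Prop where
  cK : IsCompact K
  cD : IsCompact D
  sub : K ⊆ interior D
  clo : ∀ i, IsClopen (A i)
  sep : ∀ i, Sep Γ (A i) D
  rs : ∀ i, Rs F (T i)
  sup : ∀ i o x, -r < T i o x → x ∈ Un Γ (A i) K o
  cov : ∀ o x, ∃ i, r ≤ T i o x

/-- the expected integral with respect to `vol g₀` -/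
def E0 (g₀ : Fld n X) (χ : X → ℝ) (G : F.Ω → X → ℝ) : ℝ := Ex F χ (fun _ => vol g₀) G

end

/-- the number of the values in `[-ρ, ρ]` -/
def nt {J : ℕ} (ρ : ℝ) (t : Fin J → ℝ) : ℕ := (Finset.univ.filter fun i => |t i| ≤ ρ).card

/-- the number of the values in `[-ρ, ρ]` before the first value above `ρ` -/
def kk {J : ℕ} (ρ : ℝ) (t : Fin J → ℝ) : ℕ :=
  (Finset.univ.filter fun i => |t i| ≤ ρ ∧ ∀ j < i, t j ≤ ρ).card

/-- the indicator of `k ≤ m` -/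
def ge (k m : ℕ) : ℝ := if k ≤ m then 1 else 0

/-- **PA**: stage 1 and the sharp amplification -/
def PA (n : ℕ) : Prop := ∃ s > (0 : ℝ), ∃ C > (0 : ℝ), ∀ (X Γ : Type) [Mf0 n X] [Group Γ]
  [MulAction Γ X] (g₀ : Fld n X) (χ : X → ℝ), Geo Γ g₀ χ → (∀ x, -1 ≤ scal g₀ x) → ∀ F : Fr Γ,
  ∃ δ > (0 : ℝ), δ ≤ 1 / 2 ∧ ∃ K : Set X, IsCompact K ∧ ∀ ε > (0 : ℝ), ε ≤ 1 →
    ∃ (g : F.Ω → Fld n X) (v : F.Ω → Fin n → X → ℝ) (Q a : F.Ω → X → ℝ), Gs F g₀ g v Q ∧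
      Amp F K g a ε ∧ ∀ o x, md s δ g₀ (g o) (v o) (Q o) x ≤ C / ε ^ n

/-- **PNT**: the rounds of the painting; the earlier scores have the priority -/
def PNT (n : ℕ) : Prop := ∀ s > (0 : ℝ), ∃ C > (0 : ℝ), ∀ (X Γ : Type) [Mf0 n X] [Group Γ]
  [MulAction Γ X] (g₀ : Fld n X) (χ : X → ℝ), Geo Γ g₀ χ → ∀ (F : Fr Γ) (K : Set X), IsCompact K →
  ∃ (D : Set X) (J : ℕ), ∀ r ≥ (3 : ℝ), ∃ B ≥ (1 : ℝ), ∀ β > (0 : ℝ), B * β ≤ 1 →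
  ∃ ε₀ > (0 : ℝ), ∀ ε > (0 : ℝ), ε ≤ ε₀ → ∀ (δ m : ℝ) (g : F.Ω → Fld n X)
    (v : F.Ω → Fin n → X → ℝ) (Q a : F.Ω → X → ℝ), 0 ≤ δ → δ ≤ 1 / 2 → Gs F g₀ g v Q →
    Amp F K g a ε → (∀ o x, md s δ g₀ (g o) (v o) (Q o) x ≤ m) →
    ∃ (g' : F.Ω → Fld n X) (v' : F.Ω → Fin n → X → ℝ) (Q' : F.Ω → X → ℝ) (A : Fin J → Set F.Ω)
      (T : Fin J → F.Ω → X → ℝ), Gs F g₀ g' v' Q' ∧ Amp F K g' a ε ∧ Scr F K D A T r ∧
      (∀ i o x, gn (g' o) (T i o) x ≤ ε / β) ∧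
      (∀ o x, md s δ g₀ (g' o) (v' o) (Q' o) x ≤ B * m) ∧
      E0 F g₀ χ (fun o x => ge n (kk 2 fun i => T i o x) * md s δ g₀ (g' o) (v' o) (Q' o) x) ≤
        C * β ^ n * m * ∫ x, χ x ∂vol g₀ ∧
      E0 F g₀ χ (fun o x => ge (n + 1) (nt r fun i => T i o x) * md s δ g₀ (g' o) (v' o) (Q' o) x) ≤
        B * β ^ (n + 1) * m * ∫ x, χ x ∂vol g₀

/-- **FF**: the radial pushes; the metric does not change, `lam / L` bounds the slopes -/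
def FF (n : ℕ) : Prop := ∀ J : ℕ, ∃ c > (0 : ℝ), c ≤ 1 ∧ ∀ r ≥ (1 : ℝ), ∀ (X Γ : Type) [Mf0 n X]
  [Group Γ] [MulAction Γ X] (g₀ : Fld n X) (χ : X → ℝ), Geo Γ g₀ χ → ∀ (F : Fr Γ) (K D : Set X),
  ∃ B ≥ (1 : ℝ), ∀ (L Λ m : ℝ) (A : Fin J → Set F.Ω) (T : Fin J → F.Ω → X → ℝ)
    (g : F.Ω → Fld n X) (Φ : F.Ω → X → ℝ), 0 < L → 1 ≤ Λ → Scr F K D A T r → Rn F g →
    (∀ o, Met (g o)) → (∀ i o x, gn (g o) (T i o) x ≤ 1 / L) → Rn F Φ →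
    (∀ o, Continuous (Φ o)) → (∀ o x, 0 ≤ Φ o x ∧ Φ o x ≤ m) →
    ∃ (T' : Fin J → F.Ω → X → ℝ) (lam : F.Ω → X → ℝ), Scr F K D A T' r ∧ Rs F lam ∧
      (∀ o x, 1 ≤ lam o x ∧ lam o x ≤ B * Λ ∧ gn (g o) (lam o) x ≤ B * Λ / L * lam o x ∧
        (∀ i, gn (g o) (T' i o) x ≤ lam o x / L) ∧
        ((nt r fun i => T i o x) ≤ n → lam o x = 1 ∧ ∀ i, T' i o x = T i o x) ∧
        (n + 1 ≤ (nt (c * r) fun i => T' i o x) → Λ ≤ lam o x)) ∧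
      (∀ o, ∫ x, χ x * (Φ o x * (lam o x ^ n * √(lam o x))) ∂vol g₀ ≤ B * m) ∧
      E0 F g₀ χ (fun o x => ge (n + 1) (nt r fun i => T i o x) *
          (Φ o x * (lam o x ^ n * √(lam o x)))) ≤
        B * E0 F g₀ χ fun o x => ge (n + 1) (nt r fun i => T i o x) * Φ o x

/-- **POS**: where the mass is small, the drift can be changed so that the curvature is large -/
def POS (n : ℕ) : Prop := ∀ s > (0 : ℝ), ∀ (X Γ : Type) [Mf0 n X] [Group Γ] [MulAction Γ X]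
  (g₀ : Fld n X) (χ : X → ℝ), Geo Γ g₀ χ → ∀ (F : Fr Γ) (K : Set X), IsCompact K →
  ∀ δ > (0 : ℝ), ∀ P : ℝ, ∃ c > (0 : ℝ), ∀ (ε Λ : ℝ) (g : F.Ω → Fld n X)
    (v : F.Ω → Fin n → X → ℝ) (Q a lam : F.Ω → X → ℝ), 0 < ε → ε ≤ c → 0 < Λ → Gs F g₀ g v Q →
    Amp F K g a ε → Rs F lam → (∀ o x, 0 < lam o x ∧ gn (g o) (lam o) x ≤ c * lam o x) →
    (∀ o, ∫ x in {x | Λ / 4 ≤ lam o x}, χ x * md s δ g₀ (g o) (v o) (Q o) x ∂vol g₀ ≤ c) →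
    ∃ v' : F.Ω → Fin n → X → ℝ, Sta F g v' ∧ ∀ o x,
      min (Rv (g o) (v o) x) P - 1 ≤ Rv (g o) (v' o) x ∧
      (Λ / 2 ≤ lam o x → P ≤ Rv (g o) (v' o) x)

/-- the hypotheses of `CUBE` at a point, for all scores -/
structure Cb {n J : ℕ} {X : Type} [Mf0 n X] (g : Fld n X) (l p : X → ℝ) (T : Fin J → X → ℝ) (A : ℝ)
    (x : X) : Prop where
  l0 : 0 < l x
  p0 : 0 < p x
  gl : gn g l x ≤ 1
  gp : l x * gn g p x ≤ p x
  gT : ∀ i, l x * gn g (T i) x ≤ 1 ∧ gn g (T i) x ≤ p x * (1 + A / l x ^ 2)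
  few : (nt 2 fun i => T i x) ≤ n

/-- **BLS**: the radial lemma removes the remaining intersections of `n + 1` bands -/
def BLS (n : ℕ) : Prop := ∀ J : ℕ, ∃ c > (0 : ℝ), c ≤ 1 ∧ ∀ (s A₀ T₀ B ρ : ℝ), 0 < s → 1 ≤ A₀ →
  1 ≤ B → 2 ≤ c * ρ → ∃ P : ℝ, ∃ ε₀ > (0 : ℝ), ∀ (X Γ : Type) [Mf0 n X] [Group Γ] [MulAction Γ X]
    (g₀ : Fld n X) (χ : X → ℝ), Geo Γ g₀ χ → ∀ (F : Fr Γ) (K D : Set X) (A : Fin J → Set F.Ω)
    (T : Fin J → F.Ω → X → ℝ) (r L Λ : ℝ) (g : F.Ω → Fld n X) (v : F.Ω → Fin n → X → ℝ)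
    (lam : F.Ω → X → ℝ), ρ < r → 0 < L → 0 < Λ → B * Λ / L ≤ ε₀ → Scr F K D A T r → Sta F g v →
    Rs F lam → (∀ o x, 0 < lam o x ∧ lam o x ≤ B * Λ ∧ gn (g o) (lam o) x ≤ ε₀ * lam o x ∧
      (∀ i, gn (g o) (T i o) x ≤ lam o x / L) ∧
      (n + 1 ≤ (nt ρ fun i => T i o x) → Λ ≤ lam o x) ∧
      (Λ / 2 ≤ lam o x → P ≤ Rv (g o) (v o) x)) →
    ∃ (g' : F.Ω → Fld n X) (v' : F.Ω → Fin n → X → ℝ) (l p : F.Ω → X → ℝ)
      (T' : Fin J → F.Ω → X → ℝ), Sta F g' v' ∧ Scr F K D A T' r ∧ Rs F l ∧ Rs F p ∧ ∀ o x,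
      Cb (g' o) (l o) (p o) (fun i => T' i o) A₀ x ∧ (lam o x < Λ → ∀ i, T' i o x = T i o x) ∧
      Ph s T₀ (Rv (g' o) (v' o) x - A₀ / l o x ^ 2) * p o x ^ n * dr g₀ (g' o) x ≤
        Ph s T₀ (Rv (g o) (v o) x - 1) * (lam o x / L) ^ n * dr g₀ (g o) x

/-- **CNT**: the count (from `CUBE`, the degree, the painting and the pairing) -/
def CNT (n : ℕ) : Prop := ∀ s > (0 : ℝ), ∃ A₀ ≥ (1 : ℝ), ∃ T₀ : ℝ, ∃ C > (0 : ℝ), ∀ (X Γ : Type)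
  [Mf0 n X] [Group Γ] [MulAction Γ X] (g₀ : Fld n X) (χ : X → ℝ), Geo Γ g₀ χ → ∀ (F : Fr Γ)
    (K D : Set X) (J : ℕ) (A : Fin J → Set F.Ω) (T : Fin J → F.Ω → X → ℝ) (r : ℝ)
    (g : F.Ω → Fld n X) (v : F.Ω → Fin n → X → ℝ) (l p : F.Ω → X → ℝ)
    (c : (Fin (n + 1) → Γ) → ℝ), Coc c → 3 ≤ r → Scr F K D A T r → Sta F g v → Rs F l → Rs F p →
    (∀ o x, Cb (g o) (l o) (p o) (fun i => T i o) A₀ x) →
    |pair g₀ χ c| ≤ C * E0 F g₀ χ fun o x => ge n (kk 2 fun i => T i o x) *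
      (Ph s T₀ (Rv (g o) (v o) x - A₀ / l o x ^ 2) * p o x ^ n * dr g₀ (g o) x)

end Vale.Agent.P223A
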