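import Vale.Agent.P223A.Bas
import Vale.Agent.P223F.Ex

/-!
# P223A: the stages imply `GOAL`
-/

open MeasureTheory Set Filter Topology
open scoped ContDiff
open Vale.Agent.P366M Vale.Agent.P210G Vale.Agent.P223Y Vale.Agent.P223F
open Vale.Agent.P223U (Ph)

noncomputable section

namespace Vale.Agent.P223A

theorem exists_par (n : ℕ) (a : ℝ) {e : ℝ} (he : 0 < e) : ∃ ε > (0 : ℝ), ∃ Λ ≥ (1 : ℝ), ε ≤ e ∧
    Λ * ε ≤ e ∧ a / ε ^ n ≤ (Λ / 4) ^ n * √(Λ / 4) := by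
  obtain ⟨K, K1, Ka⟩ : ∃ K ≥ (1 : ℝ), a ≤ K := ⟨max 1 a, le_max_left _ _, le_max_right _ _⟩
  obtain ⟨u, u0, u1, ue⟩ : ∃ u > (0 : ℝ), u ≤ 1 ∧ 4 * K ^ 2 * u ≤ e :=
    ⟨min 1 (e / (4 * K ^ 2)), by positivity, min_le_left _ _,
      (le_div_iff₀' (by positivity)).1 (min_le_right _ _)⟩
  have p1 : (u ^ n) ^ 2 ≤ 1 := pow_le_one₀ (by positivity) (pow_le_one₀ u0.le u1)
  have K2 : 1 ≤ K ^ 2 := one_le_pow₀ K1
  refine ⟨(u ^ n) ^ 2 * u, by positivity, 4 * (K / u ^ n) ^ 2, ?_, by nlinarith, ?_, ?_⟩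
  · rw [div_pow, ← mul_div_assoc, ge_iff_le, le_div_iff₀ (by positivity)]
    linarith
  · refine le_of_eq_of_le ?_ ue
    field_simp
  · rw [mul_div_cancel_left₀ _ four_ne_zero, Real.sqrt_sq (by positivity), div_pow, div_pow,
      div_mul_div_comm, mul_pow]
    exact div_le_div_of_nonneg_right (Ka.trans (le_mul_of_one_le_left (by positivity)
      (one_le_pow₀ K2))) (by positivity)

theorem tail {X : Type} [MeasurableSpace X] {μ : Measure X} {f w : X → ℝ} {S : Set X} {a c b : ℝ}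
    (hf : ∀ x, 0 ≤ f x) (hw : ∀ x, 0 ≤ w x) (hi : Integrable (fun x => f x * w x) μ) (ha : 0 < a)
    (hS : ∀ x ∈ S, a ≤ w x) (mS : MeasurableSet S) (hb : ∫ x, f x * w x ∂μ ≤ b) (hc : b ≤ c * a) :
    ∫ x in S, f x ∂μ ≤ c := by
  refine le_of_mul_le_mul_right (le_trans ?_ (hb.trans hc)) ha
  rw [← integral_mul_const, ← integral_indicator mS]
  exact integral_mono_of_nonneg (.of_forall fun x => indicator_nonneg
    (fun x _ => mul_nonneg (hf x) ha.le) x) hi (.of_forall fun x => indicator_le'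
      (fun x q => mul_le_mul_of_nonneg_left (hS x q) (hf x)) (fun x _ => mul_nonneg (hf x) (hw x)) x)

theorem final {n k k' z : ℕ} {s T P R R' δ q d lam L Λ y : ℝ} (hs : 0 < s) (hP : T + 2 ≤ P)
    (hq : 0 ≤ δ * q) (hd : 0 ≤ d) (l1 : 1 ≤ lam) (hL : 0 < L) (y0 : 0 ≤ y)
    (h1 : min R P - 1 ≤ R') (h2 : Λ / 2 ≤ lam → P ≤ R') (h3 : lam < Λ → z ≤ n → lam = 1 ∧ k' = k)
    (hy : y ≤ Ph s T (R' - 1) * (lam / L) ^ n * d) :
    ge n k' * y ≤ Real.exp (2 * s) / L ^ n * (ge n k * (Real.exp (-s * (R - δ * q)) * d) +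
      ge (n + 1) z * (Real.exp (-s * (R - δ * q)) * d * (lam ^ n * √lam))) := by
  have g1 := ge_nonneg n k
  have g2 := ge_nonneg (n + 1) z
  have g3 := ge_nonneg n k'
  have l0 : 0 < lam := by linarith
  by_cases c : Λ / 2 ≤ lam
  · rw [Ph_zero hs.le (by linarith [h2 c]), zero_mul, zero_mul] at hy
    rw [le_antisymm hy y0, mul_zero]
    positivity
  have e : Ph s T (R' - 1) ≤ Real.exp (2 * s) * Real.exp (-s * (R - δ * q)) := by
    rcases le_total R P with a | a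
    · rw [min_eq_left a] at h1
      rw [← Real.exp_add]
      exact (Ph_le _ _ _).trans (Real.exp_le_exp.2 (by nlinarith))
    · rw [min_eq_right a] at h1
      rw [Ph_zero hs.le (by linarith)]
      positivity
  have e2 : y ≤ Real.exp (2 * s) / L ^ n * (Real.exp (-s * (R - δ * q)) * d * lam ^ n) :=
    hy.trans ((mul_le_mul_of_nonneg_right (mul_le_mul_of_nonneg_right e (by positivity)) hd).trans_eq
      (by rw [div_pow]; ring))
  by_cases c' : z ≤ n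
  · obtain ⟨rfl, rfl⟩ := h3 (by linarith [not_le.1 c]) c'
    refine (mul_le_mul_of_nonneg_left e2 g1).trans ?_
    rw [one_pow, mul_one, mul_left_comm]
    exact mul_le_mul_of_nonneg_left (le_add_of_nonneg_right (by positivity)) (by positivity)
  · refine (mul_le_of_le_one_left y0 (ge_le _ _)).trans (e2.trans ?_)
    rw [show ge (n + 1) z = 1 from if_pos (not_le.1 c'), one_mul]
    refine mul_le_mul_of_nonneg_left (le_add_of_nonneg_of_le (by positivity)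
      (mul_le_mul_of_nonneg_left (le_mul_of_one_le_right (by positivity) ?_) (by positivity)))
      (by positivity)
    exact Real.one_le_sqrt.2 l1

theorem goal_of {n : ℕ} (pa : PA n) (pnt : PNT n) (ff : FF n) (pos : POS n) (bls : BLS n)
    (cnt : CNT n) : GOAL n := by
  obtain ⟨s, hs, C₁, hC₁, pa⟩ := pa
  obtain ⟨A₀, hA₀, T₀, C₂, hC₂, cnt⟩ := cnt s hs
  obtain ⟨C₃, hC₃, pnt⟩ := pnt s hs
  refine ⟨C₂ * (Real.exp (2 * s) * C₁ * (C₃ + 1)), fun X Γ _ _ _ d g₀ hR hI hs₀ χ hχ c hc => ?_⟩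
  have G : Geo Γ g₀ χ := ⟨d, hR, hI, hχ⟩
  have h₀ := hR.met
  obtain ⟨F⟩ := exists_fr Γ
  obtain ⟨δ, δ0, δ1, K, hK, pa⟩ := pa X Γ g₀ χ G hs₀ F
  obtain ⟨D, J, pnt⟩ := pnt X Γ g₀ χ G F K hK
  obtain ⟨c₁, c10, c11, ff⟩ := ff J
  obtain ⟨c₂, c20, c21, bls⟩ := bls J
  obtain ⟨r, r3, rc⟩ : ∃ r ≥ (3 : ℝ), 2 ≤ c₂ * (c₁ * r / 2) :=
    ⟨3 + 4 / (c₁ * c₂), le_add_of_nonneg_right (by positivity), by
      rw [show c₂ * (c₁ * (3 + 4 / (c₁ * c₂)) / 2) = 2 + 3 / 2 * (c₁ * c₂) by field_simp; ring]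
      exact le_add_of_nonneg_right (by positivity)⟩
  obtain ⟨B₁, B11, pnt⟩ := pnt r r3
  obtain ⟨B₂, B21, ff⟩ := ff r (by linarith) X Γ g₀ χ G F K D
  obtain ⟨P₀, ε₂, ε20, bls⟩ := bls s A₀ T₀ B₂ _ hs hA₀ B21 rc
  obtain ⟨c₃, c30, pos⟩ := pos s hs X Γ g₀ χ G F K hK δ δ0 (max P₀ (T₀ + 2))
  obtain ⟨β, β0, β1⟩ : ∃ β > (0 : ℝ), B₂ * B₁ * β = 1 :=
    ⟨1 / (B₂ * B₁), by positivity, by field_simp⟩
  obtain ⟨ε₁, ε10, pnt⟩ := pnt β β0 (by nlinarith [mul_pos (zero_lt_one.trans_le B11) β0])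
  obtain ⟨ε, ε0, Λ, Λ1, e1, e2, e3⟩ := exists_par n (B₂ * (B₁ * C₁) / c₃)
    (e := min (min 1 ε₁) (min c₃ (β / B₂ * min ε₂ c₃))) (by positivity)
  simp only [le_min_iff] at e1 e2
  have e4 : B₂ * Λ / (β / ε) ≤ min ε₂ c₃ := by
    rw [div_le_iff₀ (by positivity), ← mul_div_assoc, le_div_iff₀ ε0, mul_assoc,
      ← le_div_iff₀' (by positivity)]
    exact e2.2.2.trans_eq (by ring)
  obtain ⟨g, v, Q, a, S, hA, hm⟩ := pa ε ε0 e1.1.1
  obtain ⟨g, v, Q, A, T, S, hA, sc, sl, hm, Y, Z⟩ := pnt ε ε0 e1.1.2 δ _ g v Q a δ0.le δ1 S hA hm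
  have rΦ := G.rn_md S.toSta S.rq.toRn s δ
  have cΦ := fun o => cont_md s δ h₀ (S.met o) (S.cc o) (S.rq.sm o).cont
  obtain ⟨T', lam, sc', rl, H, M, Z'⟩ := ff (β / ε) Λ _ A T g _ (by positivity) Λ1 sc S.rg S.met
    (by simpa only [one_div_div] using sl) rΦ cΦ fun o x => ⟨md_nonneg _ _ _ _ _ _, hm o x⟩
  have l0 : ∀ o x, 0 < lam o x := fun o x => zero_lt_one.trans_le (H o x).1
  have gl : ∀ o x, gn (g o) (lam o) x ≤ min ε₂ c₃ * lam o x := fun o x =>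
    (H o x).2.2.1.trans (mul_le_mul_of_nonneg_right e4 (l0 o x).le)
  have lw : Li F (fun _ => vol g₀) fun o x => md s δ g₀ (g o) (v o) (Q o) x *
      (lam o x ^ n * √(lam o x)) := li_cont h₀ (rΦ.map₂ rl.toRn fun a b => a * (b ^ n * √b)).tr
    fun o => (cΦ o).mul (((rl.sm o).cont.pow n).mul (rl.sm o).cont.sqrt)
  obtain ⟨v', S', H'⟩ := pos ε Λ g v Q a lam ε0 e1.2.1 (by positivity) S hA rl
    (fun o x => ⟨l0 o x, (gl o x).trans (mul_le_mul_of_nonneg_right (min_le_right _ _) (l0 o x).le)⟩)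
    fun o => tail (w := fun x => lam o x ^ n * √(lam o x)) (a := (Λ / 4) ^ n * √(Λ / 4))
      (fun x => mul_nonneg (hχ.nn x) (md_nonneg _ _ _ _ _ _)) (fun x => by have := l0 o x; positivity)
      (by simpa only [mul_assoc] using (lw.wt hχ).int hχ.cs (cs_wt χ _) o) (by positivity)
      (fun x q => by have : Λ / 4 ≤ lam o x := q; have := l0 o x; gcongr)
      (measurableSet_le measurable_const (rl.sm o).cont.measurable)
      (by simpa only [mul_assoc] using M o)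
      ((le_of_eq (by field_simp)).trans (mul_le_mul_of_nonneg_left e3 c30.le))
  obtain ⟨g'', v'', l, p, T'', S'', sc'', rl'', rp, H''⟩ := bls X Γ g₀ χ G F K D A T' r (β / ε) Λ g
    v' lam (by nlinarith) (by positivity) (by positivity) (e4.trans (min_le_left _ _)) sc' S' rl
    fun o x => ⟨l0 o x, (H o x).2.1,
      (gl o x).trans (mul_le_mul_of_nonneg_right (min_le_left _ _) (l0 o x).le), (H o x).2.2.2.1,
      fun q => (H o x).2.2.2.2.2 (q.trans (nt_mono (by nlinarith) _)),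
      fun q => (le_max_left _ _).trans ((H' o x).2 q)⟩
  refine (cnt X Γ g₀ χ G F K D J A T'' r g'' v'' l p c hc r3 sc'' S'' rl'' rp
    fun o x => (H'' o x).1).trans ?_
  rw [mul_assoc]
  refine mul_le_mul_of_nonneg_left ?_ hC₂.le
  have l1 := li_ge sc.rs (meas_kk 2) n (li_cont h₀ rΦ.tr cΦ)
  have l2 := li_ge sc.rs (meas_nt r) (n + 1) lw
  refine (Ex_le G.rm hχ ((l1.add l2).mul (tr_const fun _ => Real.exp (2 * s) / (β / ε) ^ n)
    fun _ => continuous_const) (fun o x => ?_) fun o x => ?_).trans ?_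
  · exact mul_nonneg (ge_nonneg _ _) (mul_nonneg (mul_nonneg (Ph_nonneg _ _ _)
      (pow_pos (H'' o x).1.p0 n).le) (dr_nonneg _ _))
  · refine final hs (le_max_right P₀ _) (mul_nonneg δ0.le ((S.gi o).nonneg h₀ x)) (dr_nonneg _ _)
      (H o x).1 (by positivity) (mul_nonneg (mul_nonneg (Ph_nonneg _ _ _)
      (pow_pos (H'' o x).1.p0 n).le) (dr_nonneg _ _)) (H' o x).1 (H' o x).2 (fun q q' => ?_)
      (H'' o x).2.2
    have := (H o x).2.2.2.2.1 q'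
    exact ⟨this.1, by simp only [(H'' o x).2.1 q, this.2]⟩
  rw [Ex_const_mul, Ex_add G.rm hχ l1 l2]
  refine (mul_le_mul_of_nonneg_left (add_le_add Y (Z'.trans
    (mul_le_mul_of_nonneg_left Z (by positivity)))) (by positivity)).trans_eq ?_
  rw [pow_succ, div_pow]
  field_simp
  rw [← β1]

end Vale.Agent.P223A
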